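import Vale.Agent.Lib.P343.TwoNFA
import Vale.Agent.Lib.P343.Pump
import Vale.Agent.Lib.P343.Semigroup

/-!
P343, Q1: a quadratic lower bound for complementing two-way nondeterministic automata.

For every `n ≥ 2` there is an `(n+2)`-state automaton `A` over a one-letter alphabet, which is even
one-way, such that every two-way nondeterministic automaton recognizing the complement of `L(A)`
has at least `n^2 - n` states.
-/

namespace Vale.Agent.Results.P343.ComplementQuadratic

open Vale.Agent.Lib.P343

theorem result : ∀ n : ℕ, 2 ≤ n →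
    ∃ A : TwoNFA Unit (Fin (n + 2)), A.OneWay ∧
      ∀ (Q : Type) [Fintype Q] (B : TwoNFA Unit Q),
        (∀ w : List Unit, B.Accepts w ↔ ¬ A.Accepts w) → n ^ 2 - n ≤ Fintype.card Q := by
  intro n hn
  refine ⟨semiNFA n, semiNFA_oneWay n, ?_⟩
  intro Q _ B hB
  by_contra hlt'
  have hlt := not_le.mp hlt'
  have hnn : n + 1 ≤ n * n := by nlinarith
  obtain ⟨N, hN⟩ : ∃ N, N + n + 1 = n * n := ⟨n * n - n - 1, by omega⟩
  have hsq : n ^ 2 = n * n := by ring
  have hs : Fintype.card Q ≤ N := by omega
  have hBN : B.Accepts (List.replicate N ()) := by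
    rw [hB]
    intro hA
    exact semigroup_not_rep n N hn hN (semiNFA_sound n N hA)
  have hpump := pump_accepts B hs hBN
  rw [hB] at hpump
  apply hpump
  have hfac : 0 < (Fintype.card Q).factorial := Nat.factorial_pos _
  obtain ⟨x, y, hxy⟩ := semigroup_rep n (N + (Fintype.card Q).factorial) (by omega) (by omega)
  exact semiNFA_complete n _ (by omega) x y hxy

end Vale.Agent.Results.P343.ComplementQuadratic
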